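import Vale.Agent.P354XY.Defs

/-!
Uniform bounds by sums of monomials in r, ε, the two weights, |A|, |B| and ξ.
-/

open scoped ContDiff
open Set Filter Topology

noncomputable section

namespace Vale.Agent.P354FB

open Vale.Agent.P354n (R4)
open Vale.Agent.P354I (rnd)
open Vale.Agent.P354R (Del)
open Vale.Agent.P354XE
open Vale.Agent.P354XA

/-- The data at one point far out. -/
structure Cf (μ : ℝ) where
  M : ℝ
  a : ℝ
  s : ℝ
  δ : ℝ
  ε : ℝ
  g : Tw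
  G : R4 → R4 →L[ℝ] R4 →L[ℝ] ℝ
  β : Fin 3 → R4 → ℝ
  p : R4
  w : R4
  A : ℝ
  B : ℝ
  y : Fin 3 → ℝ
  ha : |a| < M
  hM : M ≤ μ
  hs : 0 ≤ s
  hδ : 0 ≤ δ
  e0 : 0 ≤ ε
  e1 : ε ≤ 1
  hr : 4 * μ + 1 ≤ rd p
  dG : DifferentiableAt ℝ G p
  gG : ∀ᶠ x in 𝓝 p, ∀ u v, g x u v = G x u v
  sy : ∀ᶠ x in 𝓝 p, ∀ u v, g x u v = g x v u
  far : Far M a s δ ε 2 g β p
  hB : B = dr p w
  hA : A = w.1 - lo1 M a (rd p) * B
  dec : w = B • Lo M a p + A • Nf β p + ∑ i, y i • Om i p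
  rn : rnd (xs p) (xs (∑ i, y i • Om i p)) (xs (∑ i, y i • Om i p)) = ∑ i, y i ^ 2

variable {μ : ℝ}

namespace Cf

variable (c : Cf μ)

def r : ℝ := rd c.p
def S : ℝ := uw c.M c.a c.p ^ (-c.s)
def Wt : ℝ := wt c.M c.a c.δ c.p
def ξ : ℝ := rd c.p * √(∑ i, c.y i ^ 2)
def W : R4 := ∑ i, c.y i • Om i c.p

theorem M0 : 0 < c.M := (abs_nonneg _).trans_lt c.ha
theorem r1 : 1 ≤ c.r := by have := c.hr; have := c.M0.trans_le c.hM; unfold r; linarith
theorem r0 : 0 < c.r := one_pos.trans_le c.r1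
theorem rn0 : rd c.p ≠ 0 := c.r0.ne'
theorem S0 : 0 ≤ c.S := (uw_le c.hs _ _ _).1.le
theorem S1 : c.S ≤ 1 := (uw_le c.hs _ _ _).2
theorem W0 : 0 ≤ c.Wt :=
  add_nonneg (uw_le c.hδ _ _ _).1.le (Real.rpow_nonneg (rd_nonneg _) _)
theorem W2 : c.Wt ≤ 2 := by
  have := Real.rpow_le_one_of_one_le_of_nonpos c.r1 (neg_nonpos.2 c.hδ)
  unfold Wt wt
  unfold r at this
  linarith [(uw_le c.hδ c.M c.a c.p).2]
theorem ξ0 : 0 ≤ c.ξ := mul_nonneg (rd_nonneg _) (Real.sqrt_nonneg _)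
theorem Dge : c.r ^ 2 ≤ 2 * Del c.M c.a c.r := by
  have h1 := c.hr; have h2 := c.hM; have h3 := c.r0
  unfold Del
  unfold r at *
  nlinarith [sq_nonneg c.a]
theorem D0 : 0 < Del c.M c.a c.r := by nlinarith [c.Dge, pow_pos c.r0 2]

end Cf

/-- The exponents of a monomial. -/
structure Mn where
  k : ℤ
  a : ℕ
  b : ℕ
  d : ℕ
  x : ℕ
  y : ℕ
  z : ℕ

def Mn.v (m : Mn) (c : Cf μ) : ℝ :=
  c.r ^ m.k * c.ε ^ m.a * c.S ^ m.b * c.Wt ^ m.d * (|c.A| ^ m.x * |c.B| ^ m.y * c.ξ ^ m.z)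
def Mn.mul (m n : Mn) : Mn :=
  ⟨m.k + n.k, m.a + n.a, m.b + n.b, m.d + n.d, m.x + n.x, m.y + n.y, m.z + n.z⟩
def Mn.le (m n : Mn) : Bool := decide (m.k ≤ n.k ∧ n.a ≤ m.a ∧ n.b ≤ m.b ∧ n.d ≤ m.d ∧
  m.x = n.x ∧ m.y = n.y ∧ m.z = n.z)
/-- A monomial in r, ε and the two weights. -/
def mn (k : ℤ) (a b d : ℕ) : Mn := ⟨k, a, b, d, 0, 0, 0⟩

def ev : List Mn → Cf μ → ℝ
  | [], _ => 0
  | m :: l, c => m.v c + ev l c
def pr : List Mn → List Mn → List Mn
  | [], _ => []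
  | m :: l, l' => l'.map m.mul ++ pr l l'
def dom (l l' : List Mn) : Bool := l.all fun m => l'.any fun n => m.le n

theorem Mn.v_nn (m : Mn) (c : Cf μ) : 0 ≤ m.v c := by
  have := c.r0; have := c.e0; have := c.S0; have := c.W0; have := c.ξ0
  unfold Mn.v; positivity

theorem Mn.v_mul (m n : Mn) (c : Cf μ) : (m.mul n).v c = m.v c * n.v c := by
  simp only [Mn.v, Mn.mul, zpow_add₀ c.r0.ne', pow_add]; ring

theorem Mn.v_le {m n : Mn} (h : m.le n = true) (c : Cf μ) : m.v c ≤ 2 ^ m.d * n.v c := by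
  obtain ⟨h1, h2, h3, h4, h5, h6, h7⟩ := of_decide_eq_true h
  have := c.r0; have := c.e0; have := c.S0; have := c.W0; have := c.ξ0
  have k1 := zpow_le_zpow_right₀ c.r1 h1
  have k2 := pow_le_pow_of_le_one c.e0 c.e1 h2
  have k3 := pow_le_pow_of_le_one c.S0 c.S1 h3
  have k4 : c.Wt ^ m.d ≤ 2 ^ m.d * c.Wt ^ n.d := by
    obtain ⟨j, hj⟩ := Nat.exists_eq_add_of_le' h4
    rw [hj, pow_add]
    exact mul_le_mul_of_nonneg_right ((pow_le_pow_left₀ c.W0 c.W2 j).trans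
      (pow_le_pow_right₀ one_le_two (Nat.le_add_right _ _))) (by positivity)
  calc m.v c ≤ c.r ^ n.k * c.ε ^ n.a * c.S ^ n.b * (2 ^ m.d * c.Wt ^ n.d) *
        (|c.A| ^ m.x * |c.B| ^ m.y * c.ξ ^ m.z) := by unfold Mn.v; gcongr
    _ = _ := by rw [Mn.v, h5, h6, h7]; ring

theorem ev_nn (l : List Mn) (c : Cf μ) : 0 ≤ ev l c := by
  induction l with
  | nil => exact le_rfl
  | cons m l k => exact add_nonneg (m.v_nn c) k

theorem ev_app (l l' : List Mn) (c : Cf μ) : ev (l ++ l') c = ev l c + ev l' c := by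
  induction l with
  | nil => exact (zero_add _).symm
  | cons m l k => simp only [List.cons_append, ev, k, add_assoc]

theorem ev_map (m : Mn) (l : List Mn) (c : Cf μ) : ev (l.map m.mul) c = m.v c * ev l c := by
  induction l with
  | nil => exact (mul_zero _).symm
  | cons n l k => simp only [List.map_cons, ev, k, Mn.v_mul, mul_add]

theorem ev_pr (l l' : List Mn) (c : Cf μ) : ev (pr l l') c = ev l c * ev l' c := by
  induction l with
  | nil => exact (zero_mul _).symm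
  | cons n l k => simp only [pr, ev, ev_app, ev_map, k, add_mul]

theorem le_ev {n : Mn} {l : List Mn} (h : n ∈ l) (c : Cf μ) : n.v c ≤ ev l c := by
  induction l with
  | nil => cases h
  | cons m l k =>
    rcases List.mem_cons.1 h with h | h
    · exact h ▸ le_add_of_nonneg_right (ev_nn l c)
    · exact (k h).trans (le_add_of_nonneg_left (m.v_nn c))

theorem ev_dom {l l' : List Mn} (h : dom l l' = true) :
    ∃ K, 0 ≤ K ∧ ∀ c : Cf μ, ev l c ≤ K * ev l' c := by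
  induction l with
  | nil => exact ⟨0, le_rfl, fun c => (zero_mul _).ge⟩
  | cons m l k =>
    simp only [dom, List.all_cons, Bool.and_eq_true] at h
    obtain ⟨K, K0, hK⟩ := k h.2
    obtain ⟨n, hn, mn⟩ := List.any_eq_true.1 h.1
    refine ⟨2 ^ m.d + K, by positivity, fun c => ?_⟩
    have := (Mn.v_le mn c).trans (mul_le_mul_of_nonneg_left (le_ev hn c) (by positivity))
    rw [ev, add_mul]
    exact add_le_add this (hK c)

/-- A uniform bound by a sum of monomials. -/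
def O (f : Cf μ → ℝ) (l : List Mn) : Prop := ∃ C, 0 ≤ C ∧ ∀ c, |f c| ≤ C * ev l c

namespace O

variable {f h : Cf μ → ℝ} {l l' : List Mn}

theorem of_le (C : ℝ) (h0 : 0 ≤ C) (k : ∀ c, |f c| ≤ C * ev l c) : O f l := ⟨C, h0, k⟩

theorem of_abs (k : O h l) (e : ∀ c, |f c| ≤ |h c|) : O f l :=
  k.imp fun _ k => ⟨k.1, fun c => (e c).trans (k.2 c)⟩

theorem of_le' (k : O h l) (e : ∀ c, |f c| ≤ h c) : O f l :=
  k.of_abs fun c => (e c).trans (le_abs_self _)

theorem cg (k : O h l) (e : ∀ c, f c = h c) : O f l := k.of_abs fun c => (congrArg _ (e c)).le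

theorem mono (k : O f l) (d : dom l l' = true) : O f l' := by
  obtain ⟨C, C0, hC⟩ := k
  obtain ⟨K, K0, hK⟩ := ev_dom (μ := μ) d
  exact ⟨C * K, by positivity, fun c => (hC c).trans
    ((mul_le_mul_of_nonneg_left (hK c) C0).trans_eq (mul_assoc _ _ _).symm)⟩

theorem zero (l : List Mn) : O (fun _ : Cf μ => 0) l := ⟨0, le_rfl, fun c => by simp⟩

theorem add (k : O f l) (k' : O h l) : O (fun c => f c + h c) l := by
  obtain ⟨C, C0, hC⟩ := k
  obtain ⟨K, K0, hK⟩ := k'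
  exact ⟨C + K, by positivity, fun c => (abs_add_le _ _).trans
    ((add_le_add (hC c) (hK c)).trans_eq (add_mul _ _ _).symm)⟩

theorem neg (k : O f l) : O (fun c => -f c) l := k.of_abs fun _ => (abs_neg _).le

theorem abs (k : O f l) : O (fun c => |f c|) l := k.of_abs fun _ => (abs_abs _).le

theorem sub (k : O f l) (k' : O h l) : O (fun c => f c - h c) l :=
  (k.add k'.neg).cg fun _ => sub_eq_add_neg _ _

theorem inl (k : O f l) (l' : List Mn) : O f (l ++ l') := k.imp fun C k => ⟨k.1, fun c =>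
  (k.2 c).trans (mul_le_mul_of_nonneg_left (by
    rw [ev_app]; exact le_add_of_nonneg_right (ev_nn _ _)) k.1)⟩

theorem inr (k : O f l) (l' : List Mn) : O f (l' ++ l) := k.imp fun C k => ⟨k.1, fun c =>
  (k.2 c).trans (mul_le_mul_of_nonneg_left (by
    rw [ev_app]; exact le_add_of_nonneg_left (ev_nn _ _)) k.1)⟩

theorem app (k : O f l) (k' : O h l') : O (fun c => f c + h c) (l ++ l') :=
  (k.inl l').add (k'.inr l)

theorem dif (k : O f l) (k' : O h l') : O (fun c => f c - h c) (l ++ l') :=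
  (k.inl l').sub (k'.inr l)

theorem mul (k : O f l) (k' : O h l') : O (fun c => f c * h c) (pr l l') := by
  obtain ⟨C, C0, hC⟩ := k
  obtain ⟨K, K0, hK⟩ := k'
  refine ⟨C * K, by positivity, fun c => ?_⟩
  rw [abs_mul, ev_pr, mul_mul_mul_comm]
  exact mul_le_mul (hC c) (hK c) (abs_nonneg _) ((abs_nonneg _).trans (hC c))

theorem smul (t : ℝ) (k : O f l) : O (fun c => t * f c) l := by
  obtain ⟨C, C0, hC⟩ := k
  refine ⟨|t| * C, by positivity, fun c => ?_⟩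
  rw [abs_mul, mul_assoc]
  exact mul_le_mul_of_nonneg_left (hC c) (abs_nonneg _)

theorem sum {f : Fin 3 → Cf μ → ℝ} (k : ∀ i, O (f i) l) : O (fun c => ∑ i, f i c) l :=
  (((k 0).add (k 1)).add (k 2)).cg fun _ => Fin.sum_univ_three _

theorem nil (k : O f []) (c : Cf μ) : f c = 0 := by
  obtain ⟨C, -, hC⟩ := k
  simpa [ev] using hC c

/-- One constant for all large C. -/
theorem fin (k : O f l) {w : Cf μ → ℝ} (e : ∀ c, ev l c = w c) :
    ∀ᶠ C in atTop, ∀ c, |f c| ≤ C * w c := by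
  obtain ⟨C, -, hC⟩ := k
  filter_upwards [eventually_ge_atTop C] with K hK c
  exact (hC c).trans (e c ▸ mul_le_mul_of_nonneg_right hK (ev_nn _ _))

end O

theorem ev_one (c : Cf μ) (k : ℤ) : ev [mn k 0 0 0] c = c.r ^ k := by simp [ev, mn, Mn.v]

theorem o_bd {f : Cf μ → ℝ} (C : ℝ) (k : ∀ c, |f c| ≤ C) : O f [mn 0 0 0 0] :=
  .of_le |C| (abs_nonneg _) fun c => by
    rw [ev_one, zpow_zero, mul_one]; exact (k c).trans (le_abs_self _)

theorem o_c (t : ℝ) : O (fun _ : Cf μ => t) [mn 0 0 0 0] := o_bd |t| fun _ => le_rfl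
theorem o_M : O (fun c : Cf μ => c.M) [mn 0 0 0 0] :=
  o_bd μ fun c => (abs_of_pos c.M0).trans_le c.hM
theorem o_a : O (fun c : Cf μ => c.a) [mn 0 0 0 0] := o_bd μ fun c => c.ha.le.trans c.hM
theorem o_r : O (fun c : Cf μ => c.r) [mn 1 0 0 0] :=
  .of_le 1 zero_le_one fun c => by rw [ev_one, abs_of_pos c.r0, zpow_one, one_mul]
theorem o_ri : O (fun c : Cf μ => c.r⁻¹) [mn (-1) 0 0 0] :=
  .of_le 1 zero_le_one fun c => by
    rw [ev_one, abs_of_pos (inv_pos.2 c.r0), zpow_neg_one, one_mul]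
theorem o_A : O (fun c : Cf μ => c.A) [⟨0, 0, 0, 0, 1, 0, 0⟩] :=
  .of_le 1 zero_le_one fun c => by simp [ev, Mn.v]
theorem o_B : O (fun c : Cf μ => c.B) [⟨0, 0, 0, 0, 0, 1, 0⟩] :=
  .of_le 1 zero_le_one fun c => by simp [ev, Mn.v]
theorem o_y (i : Fin 3) : O (fun c : Cf μ => c.y i) [⟨-1, 0, 0, 0, 0, 0, 1⟩] :=
  .of_le 1 zero_le_one fun c => by
    have e : ev [⟨-1, 0, 0, 0, 0, 0, 1⟩] c = √(∑ i, c.y i ^ 2) := by
      have := c.rn0
      simp only [ev, Mn.v, Cf.ξ, Cf.r, zpow_neg_one, pow_zero, pow_one]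
      field_simp
      ring
    rw [e, one_mul]
    exact Real.abs_le_sqrt (Finset.single_le_sum (f := fun i => c.y i ^ 2)
      (fun _ _ => sq_nonneg _) (Finset.mem_univ i))
theorem o_Di : O (fun c : Cf μ => (Del c.M c.a c.r)⁻¹) [mn (-2) 0 0 0] :=
  .of_le 2 zero_le_two fun c => by
    have := c.r0
    rw [ev_one, abs_of_pos (inv_pos.2 c.D0), zpow_neg, zpow_ofNat, ← div_eq_mul_inv, inv_eq_one_div,
      div_le_div_iff₀ c.D0 (by positivity), one_mul]
    exact c.Dge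

end Vale.Agent.P354FB
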