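import Vale.Agent.P354FB.Lie

/-!
The components of the metric and of its Lie derivatives along Lo and Nf in the frame.
-/

open scoped ContDiff
open Set Filter Topology

noncomputable section

namespace Vale.Agent.P354FB

open Vale.Agent.P354n (R4)
open Vale.Agent.P354 (Bilin)
open Vale.Agent.P354R (Del)
open Vale.Agent.P354XE
open Vale.Agent.P354XA

variable {μ : ℝ}

theorem o_ε : O (fun c : Cf μ => c.ε) [mn 0 1 0 0] :=
  .of_le 1 zero_le_one fun c => by simp [ev, mn, Mn.v, abs_of_nonneg c.e0]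
theorem o_S : O (fun c : Cf μ => c.S) [mn 0 0 1 0] :=
  .of_le 1 zero_le_one fun c => by simp [ev, mn, Mn.v, abs_of_nonneg c.S0]
theorem o_Wt : O (fun c : Cf μ => c.Wt) [mn 0 0 0 1] :=
  .of_le 1 zero_le_one fun c => by simp [ev, mn, Mn.v, abs_of_nonneg c.W0]
theorem o_εS : O (fun c : Cf μ => c.ε * c.S) [mn 0 1 1 0] := o_ε.mul o_S
theorem o_εW : O (fun c : Cf μ => c.ε * c.Wt) [mn 0 1 0 1] := o_ε.mul o_Wt

/-! ### The functions -/

theorem c_β (i : Fin 3) : Cl (fun c : Cf μ => c.β i) [mn 0 1 1 0] [mn 0 1 1 0] :=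
  .of_wb (fun c => c.β_d i) (fun c => (c.far.shift i).1) o_εS o_εS

theorem dL {f : Cf μ → R4 → ℝ} (c : Cf μ) : fderiv ℝ (f c) c.p (c.L c.p) = c.r⁻¹ * dv 1 f c := by
  rw [dv, vf_1, map_smul, smul_eq_mul, Cf.r, inv_mul_cancel_left₀ c.rn0, Cf.L]

theorem dN {f : Cf μ → R4 → ℝ} (c : Cf μ) : fderiv ℝ (f c) c.p (c.N c.p) =
    dv 0 f c + ∑ i, c.β i c.p * dv i.succ.succ f c := by
  simp only [c.N_eq, map_add, map_sum, map_smul, smul_eq_mul, dv, vf_ss, vf_0]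

theorem Cl.L {f : Cf μ → R4 → ℝ} {l l' : List Mn} (h : Cl f l l') :
    O (fun c => fderiv ℝ (f c) c.p (c.L c.p)) (pr [mn (-1) 0 0 0] l) := (o_ri.mul (h.w 1)).cg dL

theorem Cl.N {f : Cf μ → R4 → ℝ} {l l' : List Mn} (h : Cl f l l') :
    O (fun c => fderiv ℝ (f c) c.p (c.N c.p)) (l' ++ pr [mn 0 1 1 0] l) :=
  (h.t.app (O.sum fun i => (c_β i).v.mul (h.w _))).cg dN

theorem o_Lβ (i : Fin 3) : O (fun c : Cf μ => fderiv ℝ (c.β i) c.p (c.L c.p)) [mn (-2) 1 0 1] := by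
  have k : O (fun c : Cf μ => c.r * dv 1 (fun c => c.β i) c) [mn 0 1 0 1] :=
    o_εW.of_le' fun c => ((c.far.shift i).2 [] (Nat.zero_le _)).1
  exact (o_ri.mul (o_ri.mul k)).cg fun c => by
    rw [inv_mul_cancel_left₀ c.r0.ne']; exact dL (f := fun c => c.β i) c

theorem c_LO (i : Fin 3) :
    Cl (fun (c : Cf μ) x => c.g x (c.L x) (Om i x)) [mn 0 0 0 0] [mn 0 1 1 0] :=
  (((Cl.of_wb (fun c => (c.g_fd c.L_fd.1 (c.O_d i)).1.sub ((sy_LO i).d c)) (fun c => c.far.la i)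
    o_ε o_εS).app (sy_LO i)).mono (by decide) (by decide)).cg
    fun _ => .of_forall fun _ => (sub_add_cancel _ _).symm

theorem c_NO (i : Fin 3) : Cl (fun (c : Cf μ) x => c.g x (c.N x) (Om i x))
    [mn 1 1 0 1, mn (-1) 0 0 0] [mn 1 1 1 0] :=
  (((Cl.mul sy_r (Cl.of_wb (fun c => (((c.g_fd c.N_fd.1 (c.O_d i)).1.sub ((sy_TO i).d c)).mul
    (sy_ri.d c))) (fun c => c.far.ta i) o_εW o_εS)).app (sy_TO i)).mono (by decide)
    (by decide)).cg fun c => c.ev.mono fun x h => by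
      have := h.1
      simp only [Cf.N, Pi.mul_apply, Pi.sub_apply]
      field_simp
      ring

theorem c_OO (i j : Fin 3) : Cl (fun (c : Cf μ) x => c.g x (Om i x) (Om j x) - ip (Om i x) (Om j x))
    [mn 2 1 0 0, mn 0 0 0 0] [mn 2 1 1 0] := by
  have d : ∀ c : Cf μ, DifferentiableAt ℝ (fun x => gin c.M c.a x (Om i x) (Om j x)) c.p := fun c =>
    (((sy_OO i j).d c).add ((sy_ip i j).d c)).congr_of_eventuallyEq
      (.of_forall fun _ => (sub_add_cancel _ _).symm)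
  exact (((Cl.mul (Cl.mul sy_r sy_r) (Cl.of_wb (fun c => (((c.g_fd (c.O_d i) (c.O_d j)).1.sub
    (d c)).mul (((rd_d c).pow 2).inv (pow_ne_zero 2 c.rn0)))) (fun c => c.far.aa i j) o_ε o_εS)).app
    (sy_OO i j)).mono (by decide) (by decide)).cg fun c => c.ev.mono fun x h => by
      have := h.1
      simp only [Pi.mul_apply, Pi.sub_apply, Pi.inv_apply, Pi.pow_apply]
      field_simp
      ring

theorem c_ft : Cl (fun c : Cf μ => ftt c.M c.a c.g c.β) [mn 0 1 0 0, mn 1 1 1 0] [mn 1 1 1 0] :=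
  .of_wb (fun c => ((c.g_fd c.N_fd.1 c.N_fd.1).1.sub ((sy_TT.d c).sub_const 1)).congr_of_eventuallyEq
    (.of_forall fun x => by simp only [ftt, Cf.N, Pi.sub_apply, add_sub_cancel_right]))
    (fun c => c.far.tt) (o_ε.mul ((o_c 1).app (o_r.mul o_S))) (o_ε.mul (o_r.mul o_S))

theorem NN_eq (c : Cf μ) : (fun x => c.g x (c.N x) (c.N x) + 1) =ᶠ[𝓝 c.p]
    fun x => ftt c.M c.a c.g c.β x + (gin c.M c.a x eT eT + 1) :=
  .of_forall fun x => by simp only [ftt, Cf.N]; ring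

theorem c_NN : Cl (fun (c : Cf μ) x => c.g x (c.N x) (c.N x) + 1)
    [mn 0 1 0 0, mn 1 1 1 0, mn (-1) 0 0 0] [mn 1 1 1 0] := (c_ft.app sy_TT).cg NN_eq

theorem o_LNN : O (dv 1 fun (c : Cf μ) x => c.g x (c.N x) (c.N x) + 1)
    [mn 0 1 0 1, mn 1 1 1 0, mn (-1) 0 0 0] := by
  have k : O (dv 1 fun c : Cf μ => ftt c.M c.a c.g c.β) [mn 0 1 0 1, mn 1 1 1 0] :=
    (o_ε.mul (o_Wt.app (o_r.mul o_S))).of_le' fun c =>
      (c.far.tt' 1 one_ne_zero [] (Nat.zero_le _)).1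
  exact (k.app (sy_TT.w 1)).cg fun c => (dv_cg (NN_eq c)).trans (dv_add (c_ft.d c) (sy_TT.d c))

theorem LT_eq (c : Cf μ) : (fun x => c.g x (c.L x) eT) =ᶠ[𝓝 c.p] fun _ => -1 := by
  filter_upwards [c.far.gauge, c.ev] with x h k
  rw [Cf.L, h.2, gin_Lo k.1 k.2 (dr_T x), dq_T, mul_zero, add_zero]
  rfl

theorem LL_eq (c : Cf μ) : (fun x => c.g x (c.L x) (c.L x)) =ᶠ[𝓝 c.p] fun _ => 0 :=
  c.far.gauge.mono fun _ h => h.1

theorem c_LN : Cl (fun (c : Cf μ) x => c.g x (c.L x) (c.N x) + 1) [mn 0 1 1 0] [mn 0 1 1 0] :=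
  ((Cl.sum fun i => (c_β i).mul (c_LO i)).mono (by decide) (by decide)).cg fun c => by
    filter_upwards [c.gG, LT_eq c] with x h k
    simp only [h] at k
    simp only [h, Cf.N, Nf, map_add, map_sum, map_smul, smul_eq_mul, k]
    ring

theorem o_OO (i j : Fin 3) : O (fun c : Cf μ => c.g c.p (Om i c.p) (Om j c.p)) [mn 2 0 0 0] :=
  (((c_OO i j).v.app (sy_ip i j).v).mono (by decide)).cg fun _ => (sub_add_cancel _ _).symm

theorem o_NO (i : Fin 3) : O (fun c : Cf μ => c.g c.p (c.N c.p) (Om i c.p)) [mn 1 0 0 0] :=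
  (c_NO i).v.mono (by decide)

/-- The radial derivative of the flat part. -/
theorem ip_L (i j : Fin 3) (c : Cf μ) :
    fderiv ℝ (fun x => ip (Om i x) (Om j x)) c.p (c.L c.p) = 2 * c.r⁻¹ * ip (Om i c.p) (Om j c.p) +
      c.κ * dv 4 (fun _ x => ip (Om i x) (Om j x)) c := by
  have u := Om_fd i c.p
  have v := Om_fd j c.p
  have k : ∀ w, fderiv ℝ (fun x => ip (Om i x) (Om j x)) c.p w =
      ip (Om i w) (Om j c.p) + ip (Om i c.p) (Om j w) := fun w => by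
    rw [show fderiv ℝ (fun x => ip (Om i x) (Om j x)) c.p = _ from (((u.snd.fst.mul v.snd.fst).add
      (u.snd.snd.fst.mul v.snd.snd.fst)).add (u.snd.snd.snd.mul v.snd.snd.snd)).fderiv]
    simp [ip, OmL_ap]
    ring
  rw [dv, k, k, c.Om_L, c.Om_L, show vf c.M c.a 4 c.p = Om 2 c.p from rfl]
  simp only [ip, Prod.fst_add, Prod.snd_add, Prod.smul_fst, Prod.smul_snd, smul_eq_mul]
  ring

/-! ### The brackets -/

theorem s_β : Sp (fun c : Cf μ => ∑ i, c.β i c.p • Om i c.p) [mn 0 1 1 0] :=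
  ⟨fun i c => c.β i c.p, fun i => (c_β i).v, fun _ => rfl⟩

theorem s_LN : Sp (fun c : Cf μ => br c.L c.N c.p) [mn (-2) 1 0 1, mn (-2) 1 1 0] :=
  (Sp.sum fun i => (Sp.smul (o_Lβ i) (s_Om i)).app (Sp.smul (c_β i).v (s_LO i))).cg Cf.br_LN

theorem s_NL : Sp (fun c : Cf μ => br c.N c.L c.p) [mn (-2) 1 0 1, mn (-2) 1 1 0] :=
  (Sp.smul (o_c (-1)) s_LN).cg fun _ => br_swap _ _ _

theorem s_NO (j : Fin 3) : Sp (fun c : Cf μ => br c.N (Om j) c.p) [mn 0 1 1 0] :=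
  (Sp.sum fun i => (Sp.smul (c_β i).v (s_cm j i)).add (Sp.smul (((c_β i).w j.succ.succ).neg.cg
    fun c => by rw [dv, vf_ss]) (s_Om i))).cg fun c => c.br_NO j

/-! ### The Lie derivative along Lo -/

theorem L_LL (c : Cf μ) : c.Λ c.L (c.L c.p) (c.L c.p) = 0 := by
  rw [c.lie c.L_fd.1 c.L_fd.1, (LL_eq c).fderiv_eq, br_self, c.g_0]
  simp

theorem L_LT (c : Cf μ) : c.Λ c.L (c.L c.p) eT = 0 := by
  rw [c.lie c.L_fd.1 (differentiableAt_const eT), (LT_eq c).fderiv_eq, br_self, c.br_LT, c.g_0, c.g_0]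
  simp

theorem L_LO (i : Fin 3) : O (fun c : Cf μ => c.Λ c.L (c.L c.p) (Om i c.p)) [mn (-1) 0 0 0] :=
  (((c_LO i).L.dif ((s_LO i).bil Cf.g_bil fun k => (c_LO k).v)).mono (by decide)).cg fun c => by
    rw [c.lie c.L_fd.1 (c.O_d i), br_self, c.g_0, sub_zero]

theorem L_LN : O (fun c : Cf μ => c.Λ c.L (c.L c.p) (c.N c.p)) [mn (-1) 1 1 0] :=
  (s_β.bil (fun c => c.Λ_bil c.L) L_LO).cg fun c => by
    rw [c.N_eq, (c.Λ_bil _).add_right, L_LT, zero_add]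

theorem L_NN : O (fun c : Cf μ => c.Λ c.L (c.N c.p) (c.N c.p))
    [mn (-2) 0 0 0, mn (-1) 1 0 1, mn 0 1 1 0] :=
  ((((o_ri.mul o_LNN).dif (s_LN.bil Cf.g_bil o_NO)).dif (s_LN.bil Cf.g_bil o_NO)).mono
    (by decide)).cg fun c => by rw [c.lie c.N_fd.1 c.N_fd.1, ← dL, fderiv_add_const]

theorem L_NO (j : Fin 3) : O (fun c : Cf μ => c.Λ c.L (c.N c.p) (Om j c.p))
    [mn 0 1 0 1, mn 0 1 1 0, mn (-1) 0 0 0] :=
  ((((c_NO j).L.dif (s_LN.bil Cf.g_bil (o_OO j))).dif ((s_LO j).bil Cf.g_bil o_NO)).mono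
    (by decide)).cg fun c => c.lie c.N_fd.1 (c.O_d j)

theorem L_OO (i j : Fin 3) : O (fun c : Cf μ => c.Λ c.L (Om i c.p) (Om j c.p) -
    2 * c.r⁻¹ * ip (Om i c.p) (Om j c.p)) [mn 1 1 0 0, mn 0 0 0 0] :=
  (((((c_OO i j).L.app (o_κ.mul ((sy_ip i j).w 4))).dif ((s_LO i).bil Cf.g_bil (o_OO j))).dif
    ((s_LO j).bil Cf.g_bil (o_OO i))).mono (by decide)).cg fun c => by
    rw [c.lie (c.O_d i) (c.O_d j), fderiv_fun_sub (c.g_fd (c.O_d i) (c.O_d j)).1 ((sy_ip i j).d c),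
      sub_apply, ip_L]
    ring

/-! ### The Lie derivative along Nf -/

theorem N_LL : O (fun c : Cf μ => c.Λ c.N (c.L c.p) (c.L c.p)) [mn (-2) 1 0 0] := by
  have k := s_NL.bil (μ := μ) Cf.g_bil fun k => (c_LO k).v
  exact ((k.neg.sub k).mono (by decide)).cg fun c => by
    rw [c.lie c.L_fd.1 c.L_fd.1, (LL_eq c).fderiv_eq]
    simp

theorem N_NN : O (fun c : Cf μ => c.Λ c.N (c.N c.p) (c.N c.p)) [mn 1 1 1 0] :=
  (c_NN.N.mono (by decide)).cg fun c => by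
    rw [c.lie c.N_fd.1 c.N_fd.1, fderiv_add_const, br_self, c.g_0, sub_zero, sub_zero]

theorem N_LN : O (fun c : Cf μ => c.Λ c.N (c.L c.p) (c.N c.p)) [mn 0 1 1 0, mn (-1) 1 0 0] :=
  ((c_LN.N.dif (s_NL.bil Cf.g_bil o_NO)).mono (by decide)).cg fun c => by
    rw [c.lie c.L_fd.1 c.N_fd.1, fderiv_add_const, br_self, c.g_0, sub_zero]

theorem N_LO (j : Fin 3) : O (fun c : Cf μ => c.Λ c.N (c.L c.p) (Om j c.p)) [mn 0 1 0 0] :=
  ((((c_LO j).N.dif (s_NL.bil Cf.g_bil (o_OO j))).dif ((s_NO j).bil Cf.g_bil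
    fun k => (c_LO k).v)).mono (by decide)).cg fun c => c.lie c.L_fd.1 (c.O_d j)

theorem N_NO (j : Fin 3) : O (fun c : Cf μ => c.Λ c.N (c.N c.p) (Om j c.p)) [mn 1 1 1 0] :=
  (((c_NO j).N.dif ((s_NO j).bil Cf.g_bil o_NO)).mono (by decide)).cg fun c => by
    rw [c.lie c.N_fd.1 (c.O_d j), br_self, c.g_0, sub_zero]

theorem N_OO (i j : Fin 3) : O (fun c : Cf μ => c.Λ c.N (Om i c.p) (Om j c.p)) [mn 2 1 1 0] :=
  (((((c_OO i j).N.app (sy_ip i j).N).dif ((s_NO i).bil Cf.g_bil (o_OO j))).dif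
    ((s_NO j).bil Cf.g_bil (o_OO i))).mono (by decide)).cg fun c => by
    rw [c.lie (c.O_d i) (c.O_d j), fderiv_fun_sub (c.g_fd (c.O_d i) (c.O_d j)).1 ((sy_ip i j).d c),
      sub_apply]
    ring

end Vale.Agent.P354FB
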