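import Vale.Agent.P354FB.Cmp

/-!
FA: the pointwise consequences of the estimates Far.
-/

open scoped ContDiff
open Set Filter Topology

noncomputable section

namespace Vale.Agent.P354FB

open Vale.Agent.P354n (R4)
open Vale.Agent.P354 (Bilin)
open Vale.Agent.P354XE
open Vale.Agent.P354XA
open Vale.Agent.P354XY (Fa FA)

variable {μ : ℝ}

theorem ip_le (v : R4) : ip v v ≤ (2 * ‖v‖) ^ 2 := by
  have h1 : |v.2.1| ≤ ‖v‖ := (norm_fst_le v.2).trans (norm_snd_le v)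
  have h2 : |v.2.2.1| ≤ ‖v‖ := ((norm_fst_le v.2.2).trans (norm_snd_le v.2)).trans (norm_snd_le v)
  have h3 : |v.2.2.2| ≤ ‖v‖ := ((norm_snd_le v.2.2).trans (norm_snd_le v.2)).trans (norm_snd_le v)
  have k1 := sq_le_sq' (abs_le.1 h1).1 (abs_le.1 h1).2
  have k2 := sq_le_sq' (abs_le.1 h2).1 (abs_le.1 h2).2
  have k3 := sq_le_sq' (abs_le.1 h3).1 (abs_le.1 h3).2
  unfold ip
  nlinarith [sq_nonneg ‖v‖]

theorem bil_ip {Q : R4 → R4 → ℝ} (h : Bilin Q) (k : ℝ) : Bilin fun u v => Q u v - k * ip u v := by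
  constructor <;> intros <;> simp only [h.add_left, h.add_right, h.smul_left, h.smul_right, ip,
    Prod.fst_add, Prod.snd_add, Prod.smul_fst, Prod.smul_snd, smul_eq_mul] <;> ring

theorem ip_sy (u v : R4) : ip u v = ip v u := by unfold ip; ring

namespace Cf

variable (c : Cf μ)

theorem w_eq : c.w = c.B • c.L c.p + c.A • c.N c.p + c.W := c.dec

theorem ip_W : ip c.W c.W = c.ξ ^ 2 := by
  have k : dr c.p c.W = 0 := by
    have := fun i => ip_Om i c.p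
    rw [dr_eq, div_eq_zero_iff]
    left
    simp only [W, ip, Fin.sum_univ_three, Prod.fst_add, Prod.snd_add, Prod.smul_fst, Prod.smul_snd,
      smul_eq_mul] at this ⊢
    linear_combination c.y 0 * this 0 + c.y 1 * this 1 + c.y 2 * this 2
  rw [ip_split c.rn0, k, W, c.rn, ξ, mul_pow, Real.sq_sqrt (Finset.sum_nonneg fun _ _ => sq_nonneg _)]
  ring

theorem n_W : ‖c.W‖ ≤ c.ξ ∧ c.ξ ≤ 2 * ‖c.W‖ := by
  refine ⟨le_of_sq_le_sq ((norm_sq_le _).trans_eq ?_) c.ξ0,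
    le_of_sq_le_sq (c.ip_W ▸ ip_le _) (by positivity)⟩
  rw [c.ip_W, show c.W.1 = 0 by simp [W, Fin.sum_univ_three, Om_fst]]
  ring

theorem expand {Q : R4 → R4 → ℝ} (h : Bilin Q) (s : ∀ u v, Q u v = Q v u) : Q c.w c.w / 2 =
    1 / 2 * Q c.W c.W + 1 / 2 * (c.A * c.A * Q (c.N c.p) (c.N c.p)) +
    c.A * c.B * Q (c.L c.p) (c.N c.p) + c.B * Q (c.L c.p) c.W + c.A * Q (c.N c.p) c.W +
    1 / 2 * (c.B * c.B * Q (c.L c.p) (c.L c.p)) := by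
  rw [c.w_eq]
  simp only [h.add_left, h.add_right, h.smul_left, h.smul_right, s c.W (c.L c.p), s c.W (c.N c.p),
    s (c.N c.p) (c.L c.p)]
  ring

end Cf

theorem o_N : O (fun c : Cf μ => ‖c.N c.p‖) [mn 0 0 0 0, mn 1 1 0 0] :=
  (((o_c 1).app (O.sum fun i => (c_β i).v.abs.mul (o_Om i))).mono (by decide)).of_le' fun c => by
    rw [abs_norm, c.N_eq]
    refine (norm_add_le _ _).trans (add_le_add n_T.le ((norm_sum_le _ _).trans_eq ?_))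
    simp only [norm_smul, Real.norm_eq_abs]

theorem o_ξ : O (fun c : Cf μ => c.ξ) [⟨0, 0, 0, 0, 0, 0, 1⟩] :=
  .of_le 1 zero_le_one fun c => by simp [ev, Mn.v, abs_of_nonneg c.ξ0]

/-- The weight |A| + |B| + ξ. -/
def ln : List Mn := [⟨0, 0, 0, 0, 1, 0, 0⟩, ⟨0, 0, 0, 0, 0, 1, 0⟩, ⟨0, 0, 0, 0, 0, 0, 1⟩]

theorem f_F : ∀ᶠ C in atTop, ∀ c : Cf μ,
    |-c.g c.p (c.N c.p) (c.N c.p) - 1| ≤ C * (1 / c.r + c.ε + c.ε * c.r * c.S) :=
  (c_NN.v.neg.cg fun c => by ring).fin fun c => by simp [ev, mn, Mn.v]; ring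

theorem f_b : ∀ᶠ C in atTop, ∀ c : Cf μ, |-c.g c.p (c.L c.p) (c.N c.p) - 1| ≤ C * c.ε :=
  ((c_LN.v.neg.mono (l' := [mn 0 1 0 0]) (by decide)).cg fun c => by ring).fin
    fun c => by simp [ev, mn, Mn.v]

theorem f_l : ∀ᶠ C in atTop, ∀ c : Cf μ, |c.g c.p (c.L c.p) c.W| ≤ C * (c.ξ / c.r) :=
  (s_W.bil Cf.g_bil fun i => (c_LO i).v).fin fun c => by
    simp [ev, pr, mn, Mn.v, Mn.mul]; ring

theorem f_m : ∀ᶠ C in atTop, ∀ c : Cf μ,
    |c.g c.p (c.N c.p) c.W| ≤ C * (c.ξ * (c.ε + 1 / c.r)) :=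
  ((s_W.bil Cf.g_bil fun i => (c_NO i).v).mono (l' := [⟨0, 1, 0, 0, 0, 0, 1⟩, ⟨-1, 0, 0, 0, 0, 0, 1⟩])
    (by decide)).fin fun c => by simp [ev, Mn.v]; ring

theorem f_g : ∀ᶠ C in atTop, ∀ c : Cf μ,
    |c.g c.p c.W c.W - c.ξ ^ 2| ≤ C * (c.ξ ^ 2 * (c.ε + 1 / c.r)) :=
  (((s_W.two s_W (fun c => bil_ip c.g_bil 1) (fun c u v => by rw [c.g_sy, ip_sy])
    fun i j => (c_OO i j).v.cg fun c => by rw [one_mul]).mono
    (l' := [⟨0, 1, 0, 0, 0, 0, 2⟩, ⟨-1, 0, 0, 0, 0, 0, 2⟩]) (by decide)).cg fun c => by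
      rw [one_mul, c.ip_W]).fin fun c => by simp [ev, Mn.v]; ring

theorem f_L : ∀ᶠ C in atTop, ∀ c : Cf μ, |P354XE.pi c.g c.L c.p c.w - c.ξ ^ 2 / c.r| ≤
    C * ((c.ε + 1 / c.r) * c.ξ ^ 2 / c.r + (1 / c.r ^ 2 + c.ε * c.Wt / c.r + c.ε * c.S) * c.A ^ 2 +
      c.ε * c.S * |c.A| * |c.B| / c.r + |c.B| * c.ξ / c.r ^ 2 +
      (c.ε * c.Wt + c.ε * c.S + 1 / c.r) * |c.A| * c.ξ / c.r) := by
  have b := fun c : Cf μ => c.Λ_bil c.L
  have k := (((((s_W.two s_W (fun c => bil_ip (b c) (2 * c.r⁻¹)) (fun c u v => by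
    rw [c.Λ_sy, ip_sy]) L_OO).smul (1 / 2)).app (((o_A.mul o_A).mul L_NN).smul (1 / 2))).app
    ((o_A.mul o_B).mul L_LN)).app (o_B.mul (s_W.bil b L_LO))).app (o_A.mul (s_W.bil b L_NO))
  refine (k.cg fun c => ?_).fin fun c => ?_
  · rw [c.pi_eq, c.expand (b c) (c.Λ_sy _), L_LL, c.ip_W]
    ring
  · have := c.r0.ne'
    simp [ev, pr, mn, Mn.v, Mn.mul, zpow_ofNat]
    field_simp
    ring

theorem f_N : ∀ᶠ C in atTop, ∀ c : Cf μ, |P354XE.pi c.g c.N c.p c.w| ≤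
    C * (c.ε * (c.r * c.S * c.A ^ 2 + (c.S + 1 / c.r) * |c.A| * |c.B| + c.B ^ 2 / c.r ^ 2 +
      c.S * |c.A| * c.ξ + |c.B| * c.ξ / c.r + c.S * c.ξ ^ 2)) := by
  have b := fun c : Cf μ => c.Λ_bil c.N
  have k := ((((((s_W.two s_W b (fun c => c.Λ_sy _) N_OO).smul (1 / 2)).app
    (((o_A.mul o_A).mul N_NN).smul (1 / 2))).app ((o_A.mul o_B).mul N_LN)).app
    (o_B.mul (s_W.bil b N_LO))).app (o_A.mul (s_W.bil b N_NO))).app
    (((o_B.mul o_B).mul N_LL).smul (1 / 2))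
  refine (k.cg fun c => ?_).fin fun c => ?_
  · rw [c.pi_eq, c.expand (b c) (c.Λ_sy _)]
  · have := c.r0.ne'
    simp [ev, pr, mn, Mn.v, Mn.mul, zpow_ofNat]
    field_simp
    ring

theorem f_T : ∀ᶠ C in atTop, ∀ c : Cf μ, |c.g c.p eT c.w - c.g c.p (c.N c.p) c.w| ≤
    C * (c.ε * c.r * (|c.A| + |c.B| + c.ξ)) := by
  have k : ∀ i, O (fun c : Cf μ => c.g c.p c.w (Om i c.p)) (pr [mn 1 0 0 0] ln) := fun i =>
    ((((o_B.mul (c_LO i).v).app (o_A.mul (o_NO i))).app (s_W.bil Cf.g_bil (o_OO i))).mono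
      (by decide)).cg fun c => by
      rw [c.w_eq, c.g_bil.add_left, c.g_bil.add_left, c.g_bil.smul_left, c.g_bil.smul_left,
        c.g_sy c.W]
  refine (((s_β.bil Cf.g_bil k).neg.mono (l' := pr [mn 1 1 0 0] ln) (by decide)).cg
    fun c => ?_).fin fun c => ?_
  · rw [c.N_eq, c.g_bil.add_left, c.g_sy c.w]
    ring
  · simp [ev, pr, ln, mn, Mn.v, Mn.mul]
    ring

theorem f_w : ∀ᶠ C in atTop, ∀ c : Cf μ,
    |‖c.w‖| ≤ C * ((1 + c.ε * c.r) * (|c.A| + |c.B| + c.ξ)) := by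
  refine (((((o_B.abs.mul o_L).app (o_A.abs.mul o_N)).app o_ξ).mono
    (l' := pr [mn 0 0 0 0, mn 1 1 0 0] ln) (by decide)).of_le' fun c => ?_).fin fun c => ?_
  · rw [abs_norm, c.w_eq]
    refine norm_add₃_le.trans ?_
    simp only [norm_smul, Real.norm_eq_abs]
    exact add_le_add le_rfl c.n_W.1
  · simp [ev, pr, ln, mn, Mn.v, Mn.mul]
    ring

theorem f_n : ∀ᶠ C in atTop, ∀ c : Cf μ,
    |c.A| + |c.B| + c.ξ ≤ C * ((1 + c.ε * c.r) * ‖c.w‖) := by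
  obtain ⟨K, ⟨h1, h2⟩, h3, K0⟩ := ((((o_lo (μ := μ)).fin (w := fun _ => 1) fun c => by
    simp [ev_one]).and (o_L.fin (w := fun _ => 1) fun c => by simp [ev_one])).and
    ((o_N.fin (w := fun c => 1 + c.ε * c.r) fun c => by simp [ev, mn, Mn.v]; ring).and
      (eventually_ge_atTop 0))).exists
  filter_upwards [eventually_ge_atTop (2 + (1 + 2 * K) + 2 * (1 + 2 * K + (1 + 2 * K) * K))]
    with C hC c
  have e0 := mul_nonneg c.e0 c.r0.le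
  have n0 := norm_nonneg c.w
  have b : |c.B| ≤ 2 * ‖c.w‖ := by
    refine abs_le_of_sq_le_sq (le_trans ?_ (ip_le _)) (by positivity)
    rw [c.hB, ip_split c.rn0]
    exact le_add_of_nonneg_right (mul_nonneg (sq_nonneg _) (rnd_nonneg c.rn0 _).1)
  have a : |c.A| ≤ (1 + 2 * K) * ‖c.w‖ := by
    have k := mul_le_mul ((h1 c).trans_eq (mul_one K)) b (abs_nonneg _) K0
    have k' : |c.w.1| ≤ ‖c.w‖ := norm_fst_le c.w
    rw [c.hA]
    refine (abs_sub _ _).trans ?_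
    rw [abs_mul]
    unfold Cf.r at k
    linarith
  have x : ‖c.W‖ ≤ ‖c.w‖ + |c.B| * ‖c.L c.p‖ + |c.A| * ‖c.N c.p‖ := by
    have e : c.W = c.w - c.B • c.L c.p - c.A • c.N c.p := by rw [c.w_eq]; abel
    rw [e, ← Real.norm_eq_abs, ← Real.norm_eq_abs, ← norm_smul, ← norm_smul]
    exact (norm_sub_le _ _).trans (add_le_add (norm_sub_le _ _) le_rfl)
  have k2 := mul_le_mul b ((le_abs_self _).trans ((h2 c).trans_eq (mul_one K))) (norm_nonneg _)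
    (by positivity)
  have k3 := mul_le_mul a ((le_abs_self _).trans (h3 c)) (norm_nonneg _) (by positivity)
  have k4 := mul_nonneg e0 n0
  refine le_trans ?_ (mul_le_mul_of_nonneg_right hC (by positivity))
  linarith [c.n_W.2, mul_nonneg K0 k4]

theorem fa : FA := fun m => by
  obtain ⟨C, ⟨⟨⟨⟨h1, h2⟩, h3, h4⟩, ⟨h5, h6⟩, h7, h8⟩, h9, h10⟩, C1, C2⟩ :=
    (((((((f_F (μ := m)).and f_b).and (f_l.and f_m)).and ((f_g.and f_L).and (f_N.and f_T))).and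
      (f_w.and f_n))).and ((eventually_ge_atTop 1).and (eventually_ge_atTop (4 * m + 1)))).exists
  refine ⟨C, C1, fun M a s δ ε g β p w A B ha hM hs hδ e0 e1 hr ⟨G, dG, gG, sy⟩ far hB hA => ?_⟩
  obtain ⟨y, dec, rn⟩ := decomp M a (show rd p ≠ 0 by linarith [C1.trans hr] ) β w
  rw [← hB, ← hA] at dec
  let c : Cf m := ⟨M, a, s, δ, ε, g, G, β, p, w, A, B, y, ha, hM, hs, hδ, e0, e1, C2.trans hr, dG,
    gG, sy, far, hB, hA, dec, rn⟩
  refine ⟨c.L_fd.1, c.N_fd.1, c.W, c.ξ, c.ξ0, dec, ⟨h1 c, h2 c,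
    (h3 c).trans_eq (mul_div_assoc _ _ _).symm, (h4 c).trans_eq (mul_assoc _ _ _).symm,
    (h5 c).trans_eq (mul_assoc _ _ _).symm, ?_, ?_⟩, ?_, ?_, ?_⟩
  · exact sub_le_comm.1 ((neg_sub _ _).ge.trans ((neg_le_abs _).trans (h6 c)))
  · exact (neg_le_neg ((h7 c).trans_eq (mul_assoc _ _ _).symm)).trans (neg_abs_le _)
  · exact (h8 c).trans_eq (by simp only [← mul_assoc]; rfl)
  · exact (le_abs_self _).trans ((h9 c).trans_eq (mul_assoc _ _ _).symm)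
  · exact (h10 c).trans_eq (mul_assoc _ _ _).symm

end Vale.Agent.P354FB
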