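import Vale.Agent.P354FB.Sym

/-!
The Lie derivative of the metric as a bilinear form, and the brackets of the frame.
-/

open scoped ContDiff
open Set Filter Topology

noncomputable section

namespace Vale.Agent.P354FB

open Vale.Agent.P354n (R4)
open Vale.Agent.P354 (Bilin)
open Vale.Agent.P354R (Del)
open Vale.Agent.P354XE
open Vale.Agent.P354XA

variable {μ : ℝ}

/-- The bracket of two fields. -/
def br (X U : R4 → R4) (p : R4) : R4 := fderiv ℝ U p (X p) - fderiv ℝ X p (U p)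

theorem br_self (X : R4 → R4) (p : R4) : br X X p = 0 := sub_self _
theorem br_swap (X U : R4 → R4) (p : R4) : br X U p = (-1 : ℝ) • br U X p := by
  rw [neg_one_smul, br, br, neg_sub]

namespace Cf

variable (c : Cf μ) {X U V : R4 → R4}

/-- The Lie derivative of g along X. -/
def Λ (X : R4 → R4) (u v : R4) : ℝ :=
  fderiv ℝ c.G c.p (X c.p) u v + c.G c.p (fderiv ℝ X c.p u) v + c.G c.p u (fderiv ℝ X c.p v)

theorem g_eq (u v : R4) : c.g c.p u v = c.G c.p u v := c.gG.self_of_nhds u v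
theorem g_sy (u v : R4) : c.g c.p u v = c.g c.p v u := c.sy.self_of_nhds u v
theorem g_bil : Bilin (c.g c.p) := by constructor <;> intros <;> simp [c.g_eq]
theorem g_0 (u : R4) : c.g c.p u 0 = 0 := by simp [c.g_eq]
theorem g_0' (u : R4) : c.g c.p 0 u = 0 := by simp [c.g_eq]
theorem Λ_bil (X : R4 → R4) : Bilin (c.Λ X) := by
  constructor <;> intros <;> simp only [Λ, map_add, map_smul, add_apply, smul_apply, smul_eq_mul] <;>
    ring

theorem g_fd (hU : DifferentiableAt ℝ U c.p) (hV : DifferentiableAt ℝ V c.p) :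
    DifferentiableAt ℝ (fun x => c.g x (U x) (V x)) c.p ∧
    ∀ v, fderiv ℝ (fun x => c.g x (U x) (V x)) c.p v = fderiv ℝ c.G c.p v (U c.p) (V c.p) +
      c.G c.p (fderiv ℝ U c.p v) (V c.p) + c.G c.p (U c.p) (fderiv ℝ V c.p v) := by
  have k := ((c.dG.hasFDerivAt.clm_apply hU.hasFDerivAt).clm_apply hV.hasFDerivAt).congr_of_eventuallyEq
    (f₁ := fun x => c.g x (U x) (V x)) (c.gG.mono fun x h => h _ _)
  refine ⟨k.differentiableAt, fun v => ?_⟩
  rw [k.fderiv]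
  simp
  ring

theorem lie (hU : DifferentiableAt ℝ U c.p) (hV : DifferentiableAt ℝ V c.p) :
    c.Λ X (U c.p) (V c.p) = fderiv ℝ (fun x => c.g x (U x) (V x)) c.p (X c.p) -
      c.g c.p (V c.p) (br X U c.p) - c.g c.p (U c.p) (br X V c.p) := by
  rw [(c.g_fd hU hV).2, c.g_sy (V c.p)]
  simp only [Λ, br, c.g_eq, map_sub, sub_apply]
  ring

theorem Λ_sy (X : R4 → R4) (u v : R4) : c.Λ X u v = c.Λ X v u := by
  have k1 := c.lie (X := X) (differentiableAt_const u) (differentiableAt_const v)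
  have k2 := c.lie (X := X) (differentiableAt_const v) (differentiableAt_const u)
  have e : (fun x => c.g x u v) =ᶠ[𝓝 c.p] fun x => c.g x v u := c.sy.mono fun x h => h u v
  rw [k1, k2, e.fderiv_eq]
  ring

theorem pi_eq (X : R4 → R4) (w : R4) : P354XE.pi c.g X c.p w = c.Λ X w w / 2 := by
  have k := c.g_sy w (fderiv ℝ X c.p w)
  rw [P354XE.pi, (c.g_fd (differentiableAt_const w) (differentiableAt_const w)).2, Λ]
  simp only [c.g_eq] at k ⊢
  simp only [k, fderiv_fun_const, Pi.zero_apply, zero_apply, map_zero]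
  ring

theorem L_fd : DifferentiableAt ℝ c.L c.p ∧ ∀ v, dr c.p v = 0 →
    fderiv ℝ c.L c.p v = c.r⁻¹ • ((0, v.2) : R4) + c.κ • Om 2 v := by
  have D : DifferentiableAt ℝ (Del c.M c.a) (rd c.p) := by unfold Del; fun_prop
  have d1 : DifferentiableAt ℝ (lo1 c.M c.a) (rd c.p) :=
    ((show DifferentiableAt ℝ (fun r => 2 * (r ^ 2 + c.a ^ 2)) (rd c.p) by fun_prop).div D
      c.D0.ne').sub_const 1
  have d3 : DifferentiableAt ℝ (fun r => 2 * c.a / Del c.M c.a r) (rd c.p) :=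
    (differentiableAt_const _).div D c.D0.ne'
  have R := (rd_d c).hasFDerivAt
  have P := (hasFDerivAt_const (𝕜 := ℝ) (0 : ℝ) c.p).prodMk (hasFDerivAt_id (𝕜 := ℝ) c.p).snd
  have k := ((((d1.hasDerivAt.comp_hasFDerivAt c.p R).smul_const eT).add
    (((hasDerivAt_inv c.rn0).comp_hasFDerivAt c.p R).smul P)).add
    ((d3.hasDerivAt.comp_hasFDerivAt c.p R).smul (Om_fd 2 c.p))).congr_of_eventuallyEq
    (f₁ := c.L) (.of_forall fun x => Lo_eq _ _ x)
  refine ⟨k.differentiableAt, fun v hv => ?_⟩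
  rw [k.fderiv]
  simp [rd_fd c.rn0, hv, r, κ]
  rfl

theorem β_d (i : Fin 3) : DifferentiableAt ℝ (c.β i) c.p :=
  (c.far.smooth i).differentiableAt (by simp)

theorem N_fd : DifferentiableAt ℝ c.N c.p ∧ ∀ v, fderiv ℝ c.N c.p v =
    ∑ i, (c.β i c.p • Om i v + fderiv ℝ (c.β i) c.p v • Om i c.p) := by
  have k := (HasFDerivAt.fun_sum (u := Finset.univ) fun i _ =>
    (c.β_d i).hasFDerivAt.smul (Om_fd i c.p)).const_add eT
  refine ⟨k.differentiableAt, fun v => ?_⟩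
  rw [show fderiv ℝ c.N c.p = _ from k.fderiv]
  simp
  rfl

theorem O_d (i : Fin 3) : DifferentiableAt ℝ (Om i) c.p := (Om_fd i c.p).differentiableAt

end Cf

theorem OmL_ap (i : Fin 3) (v : R4) : OmL i v = Om i v := rfl
theorem Om_sp (i : Fin 3) (p : R4) : Om i (0, p.2) = Om i p := rfl
theorem sp_Om (i : Fin 3) (p : R4) : ((0, (Om i p).2) : R4) = Om i p := by fin_cases i <;> rfl

/-- The brackets of the rotations. -/
def cm (i j : Fin 3) (p : R4) : R4 := Om i (Om j p) - Om j (Om i p)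
def ce : Fin 3 → Fin 3 → Fin 3 → ℝ :=
  ![![![0, 0, 0], ![0, 0, 1], ![0, -1, 0]], ![![0, 0, -1], ![0, 0, 0], ![1, 0, 0]],
    ![![0, 1, 0], ![-1, 0, 0], ![0, 0, 0]]]

theorem cm_eq (i j : Fin 3) (p : R4) : cm i j p = ∑ k, ce i j k • Om k p := by
  fin_cases i <;> fin_cases j <;> simp [cm, ce, Om, Fin.sum_univ_three]

namespace Cf

variable (c : Cf μ)

theorem Om_L (i : Fin 3) : Om i (c.L c.p) = c.r⁻¹ • Om i c.p + c.κ • Om i (Om 2 c.p) := by
  have e : ∀ v, Om i v = OmL i v := fun _ => rfl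
  rw [L, Lo_eq, e, map_add, map_add, map_smul, map_smul, map_smul, ← e, Om_T, smul_zero, zero_add]
  rfl

theorem br_LO (i : Fin 3) : br c.L (Om i) c.p = c.κ • cm i 2 c.p := by
  rw [br, (Om_fd i c.p).fderiv, c.L_fd.2 _ (dr_Om i _), sp_Om, cm, OmL_ap]
  linear_combination (norm := module) c.Om_L i

theorem br_LT : br c.L (fun _ => eT) c.p = 0 := by
  rw [br, c.L_fd.2 _ (dr_T _), Om_T]
  simp [eT]

theorem N_eq : c.N c.p = eT + ∑ i, c.β i c.p • Om i c.p := rfl

theorem br_LN : br c.L c.N c.p = ∑ i, (fderiv ℝ (c.β i) c.p (c.L c.p) • Om i c.p +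
    c.β i c.p • br c.L (Om i) c.p) := by
  have k := c.br_LT
  simp only [br, fderiv_fun_const, Pi.zero_apply, zero_apply, zero_sub, neg_eq_zero] at k
  simp only [br, c.N_fd.2, N_eq, map_add, map_smul, k, (Om_fd _ c.p).fderiv,
    Fin.sum_univ_three, OmL_ap]
  module

theorem br_NO (j : Fin 3) : br c.N (Om j) c.p =
    ∑ i, (c.β i c.p • cm j i c.p + (-fderiv ℝ (c.β i) c.p (Om j c.p)) • Om i c.p) := by
  have k : OmL j eT = 0 := Om_T j
  rw [br, c.N_fd.2, (Om_fd _ c.p).fderiv]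
  simp only [N_eq, map_add, map_smul, k, Fin.sum_univ_three]
  simp only [OmL_ap, cm]
  module

end Cf

/-- Combinations of the rotations with coefficients O(l). -/
def Sp (V : Cf μ → R4) (l : List Mn) : Prop :=
  ∃ y : Fin 3 → Cf μ → ℝ, (∀ k, O (y k) l) ∧ ∀ c, V c = ∑ k, y k c • Om k c.p

namespace Sp

variable {U V : Cf μ → R4} {l l' k : List Mn} {Q : Cf μ → R4 → R4 → ℝ}

theorem cg (h : Sp V l) (e : ∀ c, U c = V c) : Sp U l :=
  h.imp fun _ h => ⟨h.1, fun c => (e c).trans (h.2 c)⟩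

theorem mono (h : Sp V l) (d : dom l l' = true) : Sp V l' :=
  h.imp fun _ h => ⟨fun k => (h.1 k).mono d, h.2⟩

theorem add (h : Sp U l) (h' : Sp V l) : Sp (fun c => U c + V c) l := by
  obtain ⟨y, hy, e⟩ := h
  obtain ⟨z, hz, e'⟩ := h'
  exact ⟨fun k c => y k c + z k c, fun k => (hy k).add (hz k), fun c => by
    simp only [e, e', add_smul, Finset.sum_add_distrib]⟩

theorem app (h : Sp U l) (h' : Sp V l') : Sp (fun c => U c + V c) (l ++ l') :=
  add (h.imp fun _ h => ⟨fun k => (h.1 k).inl _, h.2⟩) (h'.imp fun _ h => ⟨fun k => (h.1 k).inr _, h.2⟩)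

theorem smul {u : Cf μ → ℝ} (hu : O u l') (h : Sp V l) : Sp (fun c => u c • V c) (pr l' l) := by
  obtain ⟨y, hy, e⟩ := h
  exact ⟨fun k c => u c * y k c, fun k => hu.mul (hy k), fun c => by
    simp only [e, Finset.smul_sum, mul_smul]⟩

theorem sum {V : Fin 3 → Cf μ → R4} (h : ∀ i, Sp (V i) l) : Sp (fun c => ∑ i, V i c) l :=
  (((h 0).add (h 1)).add (h 2)).cg fun _ => Fin.sum_univ_three _

theorem bil (h : Sp V l) (hQ : ∀ c, Bilin (Q c)) (b : ∀ i, O (fun c => Q c (U c) (Om i c.p)) k) :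
    O (fun c => Q c (U c) (V c)) (pr l k) := by
  obtain ⟨y, hy, e⟩ := h
  exact (O.sum fun i => (hy i).mul (b i)).cg fun c => by
    simp only [e, Fin.sum_univ_three, (hQ c).add_right, (hQ c).smul_right]

theorem two (h : Sp V l) (h' : Sp U l') (hQ : ∀ c, Bilin (Q c)) (s : ∀ c u v, Q c u v = Q c v u)
    (b : ∀ i j, O (fun c => Q c (Om i c.p) (Om j c.p)) k) :
    O (fun c => Q c (U c) (V c)) (pr l (pr l' k)) :=
  h.bil hQ fun i => (h'.bil hQ (b i)).cg fun c => s c _ _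

end Sp

theorem s_Om (i : Fin 3) : Sp (fun c : Cf μ => Om i c.p) [mn 0 0 0 0] :=
  ⟨fun k _ => if k = i then 1 else 0, fun _ => o_c _, fun c => by simp⟩

theorem s_cm (i j : Fin 3) : Sp (fun c : Cf μ => cm i j c.p) [mn 0 0 0 0] :=
  ⟨fun k _ => ce i j k, fun _ => o_c _, fun _ => cm_eq i j _⟩

theorem s_W : Sp (fun c : Cf μ => c.W) [⟨-1, 0, 0, 0, 0, 0, 1⟩] :=
  ⟨fun k c => c.y k, o_y, fun _ => rfl⟩

theorem s_LO (i : Fin 3) : Sp (fun c : Cf μ => br c.L (Om i) c.p) [mn (-2) 0 0 0] :=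
  (Sp.smul o_κ (s_cm i 2)).cg fun c => c.br_LO i

end Vale.Agent.P354FB
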