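import Vale.Agent.P354FB.Big

/-!
Functions with bounds of their derivatives along the fields vf, and the Kerr functions.
-/

open scoped ContDiff
open Set Filter Topology

noncomputable section

namespace Vale.Agent.P354FB

open Vale.Agent.P354n (R4)
open Vale.Agent.P354I (rnd Sg)
open Vale.Agent.P354R (Del)
open Vale.Agent.P354XE
open Vale.Agent.P354XA

variable {μ : ℝ}

/-- The derivative along the field vf i. -/
def dv (i : Fin 5) (f : Cf μ → R4 → ℝ) (c : Cf μ) : ℝ := fderiv ℝ (f c) c.p (vf c.M c.a i c.p)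

/-- f and its derivatives along the fields are O(l), the time derivative is O(l'). -/
structure Cl (f : Cf μ → R4 → ℝ) (l l' : List Mn) : Prop where
  d : ∀ c, DifferentiableAt ℝ (f c) c.p
  v : O (fun c => f c c.p) l
  w : ∀ i, O (dv i f) l
  t : O (dv 0 f) l'

section

variable {f h : Cf μ → R4 → ℝ} {l l' k k' : List Mn} {c : Cf μ} {i : Fin 5}

theorem dv_add (hf : DifferentiableAt ℝ (f c) c.p) (hh : DifferentiableAt ℝ (h c) c.p) :
    dv i (fun c x => f c x + h c x) c = dv i f c + dv i h c := by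
  simp only [dv]; rw [fderiv_fun_add hf hh]; rfl

theorem dv_mul (hf : DifferentiableAt ℝ (f c) c.p) (hh : DifferentiableAt ℝ (h c) c.p) :
    dv i (fun c x => f c x * h c x) c = dv i f c * h c c.p + f c c.p * dv i h c := by
  simp only [dv]; rw [fderiv_fun_mul hf hh]
  simp only [add_apply, smul_apply, smul_eq_mul]
  ring

theorem dv_cg (e : f c =ᶠ[𝓝 c.p] h c) : dv i f c = dv i h c := by simp only [dv, e.fderiv_eq]

theorem dv_inv (hf : DifferentiableAt ℝ (f c) c.p) (n : f c c.p ≠ 0) :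
    dv i (fun c x => (f c x)⁻¹) c = -(dv i f c * ((f c c.p)⁻¹ * (f c c.p)⁻¹)) := by
  simp only [dv]
  rw [show fderiv ℝ (fun x => (f c x)⁻¹) c.p = _ from
    ((hasDerivAt_inv n).comp_hasFDerivAt _ hf.hasFDerivAt).fderiv]
  simp only [smul_apply, smul_eq_mul]
  field_simp

namespace Cl

theorem mono (hf : Cl f l l') (d : dom l k = true) (d' : dom l' k' = true) : Cl f k k' :=
  ⟨hf.d, hf.v.mono d, fun i => (hf.w i).mono d, hf.t.mono d'⟩

theorem cg (hh : Cl h l l') (e : ∀ c, f c =ᶠ[𝓝 c.p] h c) : Cl f l l' :=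
  ⟨fun c => (hh.d c).congr_of_eventuallyEq (e c), hh.v.cg fun c => (e c).self_of_nhds,
    fun i => (hh.w i).cg fun c => dv_cg (e c), hh.t.cg fun c => dv_cg (e c)⟩

theorem app (hf : Cl f l l') (hh : Cl h k k') :
    Cl (fun c x => f c x + h c x) (l ++ k) (l' ++ k') :=
  ⟨fun c => (hf.d c).add (hh.d c), hf.v.app hh.v,
    fun i => ((hf.w i).app (hh.w i)).cg fun c => dv_add (hf.d c) (hh.d c),
    (hf.t.app hh.t).cg fun c => dv_add (hf.d c) (hh.d c)⟩

theorem add (hf : Cl f l l') (hh : Cl h l l') : Cl (fun c x => f c x + h c x) l l' :=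
  ⟨fun c => (hf.d c).add (hh.d c), hf.v.add hh.v,
    fun i => ((hf.w i).add (hh.w i)).cg fun c => dv_add (hf.d c) (hh.d c),
    (hf.t.add hh.t).cg fun c => dv_add (hf.d c) (hh.d c)⟩

theorem mul (hf : Cl f l l') (hh : Cl h k k') :
    Cl (fun c x => f c x * h c x) (pr l k) (pr l' k ++ pr l k') :=
  ⟨fun c => (hf.d c).mul (hh.d c), hf.v.mul hh.v,
    fun i => (((hf.w i).mul hh.v).add (hf.v.mul (hh.w i))).cg fun c => dv_mul (hf.d c) (hh.d c),
    ((hf.t.mul hh.v).app (hf.v.mul hh.t)).cg fun c => dv_mul (hf.d c) (hh.d c)⟩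

theorem const {u : Cf μ → ℝ} (hu : O u l) : Cl (fun c _ => u c) l [] :=
  ⟨fun _ => differentiableAt_const _, hu, fun _ => (O.zero _).cg fun c => by simp [dv],
    (O.zero _).cg fun c => by simp [dv]⟩

theorem sum {f : Fin 3 → Cf μ → R4 → ℝ} (k : ∀ i, Cl (f i) l l') :
    Cl (fun c x => ∑ i, f i c x) l l' :=
  (((k 0).add (k 1)).add (k 2)).cg fun _ => .of_forall fun _ => Fin.sum_univ_three _

/-- The bounds Wb of the structure Far. -/
theorem of_wb {u u' : Cf μ → ℝ} (d : ∀ c, DifferentiableAt ℝ (f c) c.p)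
    (b : ∀ c, Wb c.M c.a 2 (f c) c.p (u c) (u' c)) (hu : O u l) (hu' : O u' l') : Cl f l l' :=
  ⟨d, hu.of_le' fun c => (b c [] (Nat.zero_le _)).1,
    fun i => hu.of_le' fun c => (b c [i] one_le_two).1, hu'.of_le' fun c => (b c [] (Nat.zero_le _)).2⟩

end Cl

end

/-- Stationary functions of order k. -/
abbrev Sy (k : ℤ) (f : Cf μ → R4 → ℝ) : Prop := Cl f [mn k 0 0 0] []

section

variable {f h : Cf μ → R4 → ℝ} {k j : ℤ}

theorem Sy.mul (hf : Sy k f) (hh : Sy j h) : Sy (k + j) fun c x => f c x * h c x := Cl.mul hf hh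

theorem Sy.neg (hf : Sy k f) : Sy k fun c x => -f c x := by
  have := Sy.mul (Cl.const (o_c (-1))) hf
  rw [zero_add] at this
  exact this.cg fun _ => .of_forall fun _ => (neg_one_mul _).symm

theorem Sy.sub (hf : Sy k f) (hh : Sy k h) : Sy k fun c x => f c x - h c x :=
  (Cl.add hf (Sy.neg hh)).cg fun _ => .of_forall fun _ => sub_eq_add_neg _ _

theorem Sy.inv (hf : Sy k f) (n : ∀ c, f c c.p ≠ 0) (b : O (fun c => (f c c.p)⁻¹) [mn (-k) 0 0 0]) :
    Sy (-k) fun c x => (f c x)⁻¹ := by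
  refine ⟨fun c => (hf.d c).inv (n c), b, fun i => ?_,
    (hf.t.mul (b.mul b)).neg.cg fun c => dv_inv (hf.d c) (n c)⟩
  have e : O (fun c => dv i f c * ((f c c.p)⁻¹ * (f c c.p)⁻¹)) [mn (k + (-k + -k)) 0 0 0] :=
    (hf.w i).mul (b.mul b)
  rw [add_neg_cancel_left] at e
  exact e.neg.cg fun c => dv_inv (hf.d c) (n c)

end

/-! ### Norms -/

theorem n_sp (p : R4) : ‖((0, p.2) : R4)‖ ≤ rd p := by
  have k := norm_le (0, p.2)
  rwa [abs_zero, zero_add] at k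

theorem n_Om (i : Fin 3) (p : R4) : ‖Om i p‖ ≤ rd p := by
  refine le_of_sq_le_sq ((norm_sq_le _).trans ?_) (rd_nonneg p)
  rw [rd_sq, Om_fst]
  fin_cases i <;> simp [Om, ip] <;>
    nlinarith [mul_self_nonneg p.2.1, mul_self_nonneg p.2.2.1, mul_self_nonneg p.2.2.2]

/-- The coefficient of the rotation in Lo. -/
def Cf.κ (c : Cf μ) : ℝ := 2 * c.a / Del c.M c.a c.r
def Cf.L (c : Cf μ) : R4 → R4 := Lo c.M c.a
def Cf.N (c : Cf μ) : R4 → R4 := Nf c.β

theorem o_κ : O (fun c : Cf μ => c.κ) [mn (-2) 0 0 0] :=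
  ((o_a.smul 2).mul o_Di).cg fun _ => div_eq_mul_inv _ _

theorem o_lo : O (fun c : Cf μ => lo1 c.M c.a c.r) [mn 0 0 0 0] :=
  (((((o_r.mul o_r).app (o_a.mul o_a)).smul 2).mul o_Di).dif (o_c 1)).mono (by decide) |>.cg
    fun c => by rw [lo1, div_eq_mul_inv, sq, sq]

theorem Lo_eq (M a : ℝ) (p : R4) : Lo M a p =
    lo1 M a (rd p) • eT + (rd p)⁻¹ • ((0, p.2) : R4) + (2 * a / Del M a (rd p)) • Om 2 p := by
  simp [Lo, lo1, eT]

theorem o_Om (i : Fin 3) : O (fun c : Cf μ => ‖Om i c.p‖) [mn 1 0 0 0] :=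
  o_r.of_le' fun c => (abs_norm _).trans_le (n_Om i c.p)

theorem n_T : ‖eT‖ = 1 := by simp [eT]

theorem o_L : O (fun c : Cf μ => ‖c.L c.p‖) [mn 0 0 0 0] :=
  ((o_lo.abs.app (o_ri.abs.mul o_r)).app (o_κ.abs.mul (o_Om 2))).mono (by decide) |>.of_le'
    fun c => by
    rw [abs_norm, Cf.L, Lo_eq]
    refine norm_add₃_le.trans ?_
    simp only [norm_smul, n_T, mul_one, Real.norm_eq_abs]
    exact add_le_add (add_le_add le_rfl (mul_le_mul_of_nonneg_left (n_sp _) (abs_nonneg _))) le_rfl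

theorem vf_0 (M a : ℝ) (p : R4) : vf M a 0 p = eT := rfl
theorem vf_1 (M a : ℝ) (p : R4) : vf M a 1 p = rd p • Lo M a p := rfl
theorem vf_ss (M a : ℝ) (i : Fin 3) : vf M a i.succ.succ = Om i := by fin_cases i <;> rfl

theorem o_vf (i : Fin 5) : O (fun c : Cf μ => ‖vf c.M c.a i c.p‖) [mn 1 0 0 0] := by
  refine Fin.cases ?_ (Fin.cases ?_ fun i => ?_) i
  · exact ((o_c 1).mono (by decide)).cg fun _ => n_T
  · exact (o_r.mul o_L).cg fun c => (norm_smul (rd c.p) _).trans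
      (congrArg (· * _) (Real.norm_of_nonneg (rd_nonneg _)))
  · exact (o_Om i).cg fun c => by rw [vf_ss]

/-! ### Kerr functions -/

theorem sy_lin (q : R4 →L[ℝ] ℝ) (h : q eT = 0) : Sy 1 fun (_ : Cf μ) x => q x := by
  have e : ∀ i (c : Cf μ), dv i (fun (_ : Cf μ) x => q x) c = q (vf c.M c.a i c.p) := fun i c =>
    DFunLike.congr_fun q.fderiv _
  refine ⟨fun _ => q.differentiableAt, (o_r.smul ‖q‖).of_le' fun c => ?_,
    fun i => ((o_vf i).smul ‖q‖).of_le' fun c => ?_, (O.zero _).cg fun c => (e 0 c).trans h⟩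
  · have k : c.p = c.p.1 • eT + (0, c.p.2) := by simp [eT]
    rw [k, map_add, map_smul, h, smul_zero, zero_add]
    exact (q.le_opNorm _).trans (mul_le_mul_of_nonneg_left (n_sp _) (norm_nonneg _))
  · rw [e]; exact q.le_opNorm _

/-- The rotations as linear maps, and the coordinates. -/
def OmL (i : Fin 3) : R4 →L[ℝ] R4 := LinearMap.toContinuousLinearMap
  { toFun := Om i
    map_add' := fun p v => by fin_cases i <;> simp [Om] <;> ring
    map_smul' := fun c p => by fin_cases i <;> simp [Om] }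
def cX : R4 →L[ℝ] ℝ := (ContinuousLinearMap.fst ℝ ℝ _).comp (ContinuousLinearMap.snd ℝ ℝ _)
def cY : R4 →L[ℝ] ℝ := ((ContinuousLinearMap.fst ℝ ℝ _).comp (ContinuousLinearMap.snd ℝ ℝ _)).comp
  (ContinuousLinearMap.snd ℝ ℝ _)
def cZ : R4 →L[ℝ] ℝ := ((ContinuousLinearMap.snd ℝ ℝ _).comp (ContinuousLinearMap.snd ℝ ℝ _)).comp
  (ContinuousLinearMap.snd ℝ ℝ _)

theorem Om_T (i : Fin 3) : Om i eT = 0 := by fin_cases i <;> simp [Om, eT]
theorem Om_fd (i : Fin 3) (p : R4) : HasFDerivAt (Om i) (OmL i) p := (OmL i).hasFDerivAt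

theorem sy_X : Sy 1 fun (_ : Cf μ) x => x.2.1 := sy_lin cX rfl
theorem sy_Y : Sy 1 fun (_ : Cf μ) x => x.2.2.1 := sy_lin cY rfl
theorem sy_Z : Sy 1 fun (_ : Cf μ) x => x.2.2.2 := sy_lin cZ rfl
theorem sy_OX (i : Fin 3) : Sy 1 fun (_ : Cf μ) x => (Om i x).2.1 :=
  sy_lin (cX.comp (OmL i)) (congrArg (·.2.1) (Om_T i))
theorem sy_OY (i : Fin 3) : Sy 1 fun (_ : Cf μ) x => (Om i x).2.2.1 :=
  sy_lin (cY.comp (OmL i)) (congrArg (·.2.2.1) (Om_T i))
theorem sy_OZ (i : Fin 3) : Sy 1 fun (_ : Cf μ) x => (Om i x).2.2.2 :=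
  sy_lin (cZ.comp (OmL i)) (congrArg (·.2.2.2) (Om_T i))

theorem rd_d (c : Cf μ) : DifferentiableAt ℝ rd c.p :=
  (rd_cd (n := 1) c.rn0).differentiableAt one_ne_zero

theorem dv_r1 (c : Cf μ) : dv 1 (fun _ => rd) c = c.r := by
  rw [dv, vf_1, map_smul, rd_fd c.rn0, dr_Lo c.rn0, smul_eq_mul, mul_one, Cf.r]

theorem sy_r : Sy 1 fun _ : Cf μ => rd := by
  have t : ∀ c : Cf μ, dv 0 (fun _ => rd) c = 0 := fun c => (rd_fd c.rn0 _).trans (dr_T _)
  refine ⟨rd_d, o_r, Fin.cases ((O.zero _).cg t) (Fin.cases (o_r.cg dv_r1) fun i => ?_),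
    (O.zero _).cg t⟩
  exact (O.zero _).cg fun c => by rw [dv, vf_ss, rd_fd c.rn0, dr_Om]

theorem sy_ri : Sy (-1) fun (_ : Cf μ) x => (rd x)⁻¹ := Sy.inv sy_r Cf.rn0 o_ri
theorem sy_M : Sy 0 fun (c : Cf μ) _ => c.M := Cl.const o_M
theorem sy_a : Sy 0 fun (c : Cf μ) _ => c.a := Cl.const o_a
theorem sy_c (t : ℝ) : Sy 0 fun (_ : Cf μ) _ => t := Cl.const (o_c t)

theorem sy_ip (i j : Fin 3) : Sy 2 fun (_ : Cf μ) x => ip (Om i x) (Om j x) :=
  ((Sy.mul (sy_OX i) (sy_OX j)).add (Sy.mul (sy_OY i) (sy_OY j))).add (Sy.mul (sy_OZ i) (sy_OZ j))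

theorem sy_dq (i : Fin 3) : Sy 0 fun (_ : Cf μ) x => dq x (Om i x) :=
  (Sy.mul (Sy.sub (Sy.mul sy_X (sy_OY i)) (Sy.mul sy_Y (sy_OX i))) (Sy.mul sy_ri sy_ri)).cg
    fun _ => .of_forall fun x => by simp only [dq_eq, sq, div_eq_mul_inv, mul_inv]

theorem sy_z : Sy 0 fun (c : Cf μ) x => c.a ^ 2 * (x.2.2.2 ^ 2 / rd x ^ 2) :=
  (Sy.mul (Sy.mul sy_a sy_a) (Sy.mul (Sy.mul sy_Z sy_Z) (Sy.mul sy_ri sy_ri))).cg
    fun _ => .of_forall fun x => by simp only [sq, div_eq_mul_inv, mul_inv]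

theorem sy_S : Sy 2 fun (c : Cf μ) x => Sg c.a (rd x) (xs x) :=
  ((Sy.mul sy_r sy_r).add (sy_z.mono (by decide) rfl)).cg
    fun _ => .of_forall fun x => by simp only [Sg_eq, sq]

theorem sy_H : Sy (-1) fun (c : Cf μ) x => 2 * c.M * rd x / Sg c.a (rd x) (xs x) := by
  have p : ∀ c : Cf μ, 0 < c.r ^ 2 := fun c => pow_pos c.r0 2
  have k : Sy (-2) fun (c : Cf μ) x => (Sg c.a (rd x) (xs x))⁻¹ :=
    Sy.inv sy_S (fun c => ((p c).trans_le (Sg_ge c.a c.p)).ne') ((o_ri.mul o_ri).of_le' fun c => by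
      rw [abs_of_pos (inv_pos.2 ((p c).trans_le (Sg_ge c.a c.p))), ← mul_inv, ← sq]
      exact inv_anti₀ (p c) (Sg_ge c.a c.p))
  exact (Sy.mul (Sy.mul (Sy.mul (sy_c 2) sy_M) sy_r) k).cg
    fun _ => .of_forall fun x => div_eq_mul_inv _ _

theorem Cf.ev (c : Cf μ) : ∀ᶠ x in 𝓝 c.p, rd x ≠ 0 ∧ Del c.M c.a (rd x) ≠ 0 := by
  have k : Continuous fun x => Del c.M c.a (rd x) := by
    have := rd_cont
    unfold Del; fun_prop
  exact (rd_cont.continuousAt.eventually_ne c.rn0).and (k.continuousAt.eventually_ne c.D0.ne')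

theorem dq_T (p : R4) : dq p eT = 0 := by simp [dq_eq, eT]

theorem sy_LO (i : Fin 3) : Sy 0 fun (c : Cf μ) x => gin c.M c.a x (c.L x) (Om i x) :=
  (Sy.mul sy_a (sy_dq i)).cg fun c => c.ev.mono fun x h => by
    simp only [Cf.L, gin_Lo h.1 h.2 (dr_Om i x), Om_fst, neg_zero, zero_add]

theorem sy_TT : Sy (-1) fun (c : Cf μ) x => gin c.M c.a x eT eT + 1 :=
  sy_H.cg fun c => .of_forall fun x => by
    simp only [gin_T (dr_T x), dq_T, show eT.1 = 1 from rfl]; ring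

theorem sy_TO (i : Fin 3) : Sy (-1) fun (c : Cf μ) x => gin c.M c.a x eT (Om i x) :=
  (Sy.neg (Sy.mul sy_H (Sy.mul sy_a (sy_dq i)))).cg fun c => .of_forall fun x => by
    simp only [gin_T (dr_Om i x), Om_fst]; ring

theorem sy_OO (i j : Fin 3) :
    Sy 0 fun (c : Cf μ) x => gin c.M c.a x (Om i x) (Om j x) - ip (Om i x) (Om j x) := by
  have q := Sy.mul (Sy.mul (sy_a (μ := μ)) (sy_dq i)) (Sy.mul sy_a (sy_dq j))
  exact (((Sy.mul (Sy.mul sy_z (Sy.mul sy_ri sy_ri)) (sy_ip i j)).add q).add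
    ((Sy.mul sy_H q).mono (by decide) rfl)).cg fun c => c.ev.mono fun x h => by
      have := h.1
      simp only [gin, kf, dr_Om, Om_fst, rnd_eq, ip_Om]
      rw [show Sg c.a (rd x) (xs x) * _ = (rd x ^ 2 + c.a ^ 2 * (x.2.2.2 ^ 2 / rd x ^ 2)) * _ from rfl]
      generalize 2 * c.M * rd x / Sg c.a (rd x) (xs x) = H
      field_simp
      ring

end Vale.Agent.P354FB
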